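import Mathlib
import Vale.Agent.Lib.P249.Explicit
import Vale.Agent.Lib.P249.Simple

/-!
# P249 : `d_p(n, D) ≤ C(p) ((D+1)/(D-1))^2 n log n` for arbitrary `L_p(μ)`
-/

namespace Vale.Agent.Results.P249.General

open Vale.Agent.Lib.P249 MeasureTheory

universe u

/-- For every `p ≥ 1` there is a constant `C` such that for all `D > 1` and `n ≥ 2` any `n` points
of any `L_p(μ)` embed into `ℓ_p^d` with distortion at most `D`, where
`d ≤ C ((D+1)/(D-1))^2 n log n`. -/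
theorem result (p : ℝ) (hp : 1 ≤ p) :
    ∃ C : ℝ, ∀ D : ℝ, 1 < D → ∀ n : ℕ, 2 ≤ n →
      ∃ d : ℕ, (d : ℝ) ≤ C * ((D + 1) / (D - 1)) ^ 2 * n * Real.log n ∧
        ∀ {Ω : Type u} [MeasurableSpace Ω] (μ : Measure Ω)
          (x : Fin n → Lp ℝ (ENNReal.ofReal p) μ),
          ∃ (f : Fin n → PiLp (ENNReal.ofReal p) (fun _ : Fin d => ℝ)) (s : ℝ), 0 < s ∧
            ∀ i j, s * ‖x i - x j‖ ≤ ‖f i - f j‖ ∧ ‖f i - f j‖ ≤ D * s * ‖x i - x j‖ := by
  have hp0 : 0 < p := by linarith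
  have hq : (ENNReal.ofReal p).toReal = p := ENNReal.toReal_ofReal hp0.le
  have hq0 : 0 < (ENNReal.ofReal p).toReal := by rw [hq]; exact hp0
  have hqt : ENNReal.ofReal p ≠ ⊤ := ENNReal.ofReal_ne_top
  have hk := kap_nonneg p
  refine ⟨144 * (kap p + 1) + 1, fun D hD n hn => ?_⟩
  set ε : ℝ := (D - 1) / (D + 1) with hε
  have hε0 : 0 < ε := div_pos (by linarith) (by linarith)
  have hε1 : ε < 1 := by
    rw [hε, div_lt_one (by linarith)]
    linarith
  have hεD : 1 + ε = D * (1 - ε) := by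
    rw [hε]
    have : D + 1 ≠ 0 := by linarith
    field_simp
    ring
  have hεinv : ((D + 1) / (D - 1)) ^ 2 = 1 / ε ^ 2 := by
    rw [hε]
    have h1 : D + 1 ≠ 0 := by linarith
    have h2 : D - 1 ≠ 0 := by linarith
    field_simp
  set ε' : ℝ := ε / 3 with hε'
  have hε'0 : 0 < ε' := by positivity
  have hε'1 : ε' < 1 := by linarith
  have hC0 := Cdim_nonneg p ε' hε'0 hε'1
  have hCle : Cdim p ε' ≤ 144 * (kap p + 1) / ε ^ 2 := by
    refine (Cdim_le p hε'0 hε'1).trans (le_of_eq ?_)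
    rw [hε']
    field_simp
    ring
  have hnR : (2 : ℝ) ≤ (n : ℝ) := by exact_mod_cast hn
  have hlog2 : (1 : ℝ) / 2 ≤ Real.log n := by
    have h1 : Real.log 2 ≤ Real.log n := Real.log_le_log (by norm_num) hnR
    have h2 := Real.log_two_gt_d9
    linarith
  have hnlog : 1 ≤ (n : ℝ) * Real.log n := by nlinarith
  have hX0 : 0 ≤ Cdim p ε' * n * Real.log n := by
    have : 0 ≤ (n : ℝ) * Real.log n := by linarith
    rw [mul_assoc]
    exact mul_nonneg hC0 this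
  refine ⟨⌈Cdim p ε' * n * Real.log n⌉₊, ?_, ?_⟩
  · have h1 := (Nat.ceil_lt_add_one hX0).le
    have h2 : (1 : ℝ) ≤ 1 / ε ^ 2 := by
      rw [le_div_iff₀ (by positivity)]
      nlinarith
    have h3 : Cdim p ε' + 1 ≤ (144 * (kap p + 1) + 1) * (1 / ε ^ 2) := by
      have : (144 * (kap p + 1) + 1) * (1 / ε ^ 2) = 144 * (kap p + 1) / ε ^ 2 + 1 / ε ^ 2 := by
        ring
      linarith
    calc ((⌈Cdim p ε' * n * Real.log n⌉₊ : ℕ) : ℝ) ≤ Cdim p ε' * n * Real.log n + 1 := h1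
      _ ≤ Cdim p ε' * n * Real.log n + n * Real.log n := by linarith
      _ = (Cdim p ε' + 1) * (n * Real.log n) := by ring
      _ ≤ ((144 * (kap p + 1) + 1) * (1 / ε ^ 2)) * (n * Real.log n) :=
          mul_le_mul_of_nonneg_right h3 (by linarith)
      _ = (144 * (kap p + 1) + 1) * ((D + 1) / (D - 1)) ^ 2 * n * Real.log n := by
          rw [hεinv]
          ring
  intro Ω _ μ x
  set d : ℕ := ⌈Cdim p ε' * n * Real.log n⌉₊ with hd
  have hfact : Fact (1 ≤ ENNReal.ofReal p) := ⟨by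
    rw [← ENNReal.ofReal_one]
    exact ENNReal.ofReal_le_ofReal hp⟩
  -- a positive lower bound for the nonzero distances
  obtain ⟨δ₀, hδ₀, hδ⟩ : ∃ δ₀ : ℝ, 0 < δ₀ ∧ ∀ i j, x i ≠ x j → δ₀ ≤ ‖x i - x j‖ := by
    classical
    set P : Finset (Fin n × Fin n) := Finset.univ.filter (fun e => x e.1 ≠ x e.2) with hP
    by_cases hne : P.Nonempty
    · obtain ⟨e, he, hmin⟩ := Finset.exists_min_image P (fun e => ‖x e.1 - x e.2‖) hne
      refine ⟨‖x e.1 - x e.2‖, ?_, ?_⟩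
      · exact norm_pos_iff.mpr (sub_ne_zero.mpr (Finset.mem_filter.mp he).2)
      · intro i j hij
        exact hmin (i, j) (Finset.mem_filter.mpr ⟨Finset.mem_univ _, hij⟩)
    · refine ⟨1, one_pos, ?_⟩
      intro i j hij
      exact absurd ⟨(i, j), Finset.mem_filter.mpr ⟨Finset.mem_univ _, hij⟩⟩ hne
  have hdense : ∀ y : Lp ℝ (ENNReal.ofReal p) μ, ∃ s : Lp.simpleFunc ℝ (ENNReal.ofReal p) μ,
      dist y (s : Lp ℝ (ENNReal.ofReal p) μ) < ε' * δ₀ / 2 := fun y =>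
    (Lp.simpleFunc.denseRange hqt).exists_dist_lt y (by positivity)
  choose φ hφ using hdense
  set g : Fin n → SimpleFunc Ω ℝ := fun i => Lp.simpleFunc.toSimpleFunc (φ (x i)) with hg
  have hgmem : ∀ i, MemLp (g i) (ENNReal.ofReal p) μ := fun i => Lp.simpleFunc.memLp _
  obtain ⟨a, ha⟩ := simple_to_finite μ p hp g hgmem
  have hnormS : ∀ i j, ‖(φ (x i) : Lp ℝ (ENNReal.ofReal p) μ) - (φ (x j) : Lp ℝ (ENNReal.ofReal p) μ)‖
      = (∑ k, |a i k - a j k| ^ p) ^ (1 / p) := by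
    intro i j
    rw [← ha i j, Lp.norm_def]
    congr 1
    refine eLpNorm_congr_ae ?_
    filter_upwards [Lp.coeFn_sub (φ (x i) : Lp ℝ (ENNReal.ofReal p) μ)
      (φ (x j) : Lp ℝ (ENNReal.ofReal p) μ), Lp.simpleFunc.toSimpleFunc_eq_toFun (φ (x i)),
      Lp.simpleFunc.toSimpleFunc_eq_toFun (φ (x j))] with ω h1 h2 h3
    rw [h1]
    simp only [Pi.sub_apply, hg, h2, h3]
  obtain ⟨f, hf⟩ := core' p hp ε' hε'0 hε'1 n hn d (Nat.le_ceil _) a
  refine ⟨fun i => WithLp.toLp (ENNReal.ofReal p) (f i), 1 - ε, by linarith, fun i j => ?_⟩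
  obtain ⟨h1, h2⟩ := hf i j
  set Λ : ℝ := ∑ k, |a i k - a j k| ^ p with hΛ
  set Γ : ℝ := ∑ t, |f i t - f j t| ^ p with hΓ
  have hΛ0 : 0 ≤ Λ := Finset.sum_nonneg (fun k _ => Real.rpow_nonneg (abs_nonneg _) p)
  have hΓ0 : 0 ≤ Γ := Finset.sum_nonneg (fun k _ => Real.rpow_nonneg (abs_nonneg _) p)
  have e2 : ‖WithLp.toLp (ENNReal.ofReal p) (f i) - WithLp.toLp (ENNReal.ofReal p) (f j)‖
      = Γ ^ (1 / p) := by
    rw [PiLp.norm_eq_sum hq0, hq]
    simp only [Real.norm_eq_abs]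
    rfl
  rw [e2]
  set A : ℝ := ‖x i - x j‖ with hA
  have hA0 : 0 ≤ A := norm_nonneg _
  set B : ℝ := Λ ^ (1 / p) with hB
  have hB0 : 0 ≤ B := Real.rpow_nonneg hΛ0 _
  have hAB : (1 - ε') * A ≤ B ∧ B ≤ (1 + ε') * A := by
    have hBn : B = ‖(φ (x i) : Lp ℝ (ENNReal.ofReal p) μ) - (φ (x j) : Lp ℝ (ENNReal.ofReal p) μ)‖ :=
      (hnormS i j).symm
    by_cases hij : x i = x j
    · have hA' : A = 0 := by rw [hA, hij, sub_self, norm_zero]
      have hB' : B = 0 := by rw [hBn, hij, sub_self, norm_zero]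
      rw [hA', hB']
      simp
    · have hδA : δ₀ ≤ A := hδ i j hij
      have t1 := hφ (x i)
      have t2 := hφ (x j)
      rw [dist_eq_norm] at t1 t2
      have t3 : A ≤ B + ‖x i - (φ (x i) : Lp ℝ (ENNReal.ofReal p) μ)‖
          + ‖x j - (φ (x j) : Lp ℝ (ENNReal.ofReal p) μ)‖ := by
        rw [hA, hBn]
        have e : x i - x j = ((φ (x i) : Lp ℝ (ENNReal.ofReal p) μ) - (φ (x j) : Lp ℝ (ENNReal.ofReal p) μ))
            + (x i - (φ (x i) : Lp ℝ (ENNReal.ofReal p) μ))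
            - (x j - (φ (x j) : Lp ℝ (ENNReal.ofReal p) μ)) := by abel
        calc ‖x i - x j‖ = ‖((φ (x i) : Lp ℝ (ENNReal.ofReal p) μ) - (φ (x j) : Lp ℝ (ENNReal.ofReal p) μ))
            + (x i - (φ (x i) : Lp ℝ (ENNReal.ofReal p) μ))
            - (x j - (φ (x j) : Lp ℝ (ENNReal.ofReal p) μ))‖ := by rw [← e]
          _ ≤ _ := (norm_sub_le _ _).trans (add_le_add_left (norm_add_le _ _) _)
      have t4 : B ≤ A + ‖x i - (φ (x i) : Lp ℝ (ENNReal.ofReal p) μ)‖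
          + ‖x j - (φ (x j) : Lp ℝ (ENNReal.ofReal p) μ)‖ := by
        rw [hA, hBn]
        have e : (φ (x i) : Lp ℝ (ENNReal.ofReal p) μ) - (φ (x j) : Lp ℝ (ENNReal.ofReal p) μ)
            = (x i - x j) - (x i - (φ (x i) : Lp ℝ (ENNReal.ofReal p) μ))
            + (x j - (φ (x j) : Lp ℝ (ENNReal.ofReal p) μ)) := by abel
        calc ‖(φ (x i) : Lp ℝ (ENNReal.ofReal p) μ) - (φ (x j) : Lp ℝ (ENNReal.ofReal p) μ)‖
            = ‖(x i - x j) - (x i - (φ (x i) : Lp ℝ (ENNReal.ofReal p) μ))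
            + (x j - (φ (x j) : Lp ℝ (ENNReal.ofReal p) μ))‖ := by rw [← e]
          _ ≤ _ := (norm_add_le _ _).trans (add_le_add_left (norm_sub_le _ _) _)
      have t5 : ε' * δ₀ ≤ ε' * A := mul_le_mul_of_nonneg_left hδA hε'0.le
      constructor <;> linarith
  have hinv : 0 ≤ 1 / p := by positivity
  have hinv1 : 1 / p ≤ 1 := by
    rw [div_le_one hp0]
    exact hp
  have l1 : (1 - ε') * B ≤ Γ ^ (1 / p) := by
    have s1 : (1 - ε') ≤ (1 - ε') ^ (1 / p) := by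
      have := Real.rpow_le_rpow_of_exponent_ge (x := 1 - ε') (by linarith) (by linarith) hinv1
      rwa [Real.rpow_one] at this
    calc (1 - ε') * B ≤ (1 - ε') ^ (1 / p) * B := mul_le_mul_of_nonneg_right s1 hB0
      _ = ((1 - ε') * Λ) ^ (1 / p) := by rw [Real.mul_rpow (by linarith) hΛ0]
      _ ≤ Γ ^ (1 / p) := Real.rpow_le_rpow (mul_nonneg (by linarith) hΛ0) h1 hinv
  have l2 : Γ ^ (1 / p) ≤ (1 + ε') * B := by
    have s1 : (1 + ε') ^ (1 / p) ≤ (1 + ε') := by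
      have := Real.rpow_le_rpow_of_exponent_le (x := 1 + ε') (by linarith) hinv1
      rwa [Real.rpow_one] at this
    calc Γ ^ (1 / p) ≤ ((1 + ε') * Λ) ^ (1 / p) := Real.rpow_le_rpow hΓ0 h2 hinv
      _ = (1 + ε') ^ (1 / p) * B := by rw [Real.mul_rpow (by linarith) hΛ0]
      _ ≤ (1 + ε') * B := mul_le_mul_of_nonneg_right s1 hB0
  obtain ⟨hAB1, hAB2⟩ := hAB
  constructor
  · calc (1 - ε) * A ≤ (1 - ε') * ((1 - ε') * A) := by
          have : (1 - ε) ≤ (1 - ε') * (1 - ε') := by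
            rw [hε']
            nlinarith
          calc (1 - ε) * A ≤ ((1 - ε') * (1 - ε')) * A := mul_le_mul_of_nonneg_right this hA0
            _ = (1 - ε') * ((1 - ε') * A) := by ring
      _ ≤ (1 - ε') * B := mul_le_mul_of_nonneg_left hAB1 (by linarith)
      _ ≤ Γ ^ (1 / p) := l1
  · calc Γ ^ (1 / p) ≤ (1 + ε') * B := l2
      _ ≤ (1 + ε') * ((1 + ε') * A) := mul_le_mul_of_nonneg_left hAB2 (by linarith)
      _ = ((1 + ε') * (1 + ε')) * A := by ring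
      _ ≤ (1 + ε) * A := by
          refine mul_le_mul_of_nonneg_right ?_ hA0
          rw [hε']
          nlinarith
      _ = D * (1 - ε) * A := by rw [hεD]

end Vale.Agent.Results.P249.General
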