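import Mathlib
import Vale.Agent.Lib.P249.GaussFinal

/-!
# P249 : a superlogarithmic lower bound for dimension reduction in `L_p`, `p > 2`
-/

namespace Vale.Agent.Results.P249.LowerBound

open Vale.Agent.Lib.P249 MeasureTheory ProbabilityTheory

/-- Choice of the dimension `k` of the grid as a function of the number `n` of points. -/
theorem choose_k (K1 : ℝ) (hK1 : 1 ≤ K1) (n : ℕ) (hn : Real.exp (64 * K1 ^ 2) ≤ n) :
    ∃ k : ℕ, 1 ≤ k ∧ K1 ≤ k ∧ Real.log n / (4 * Real.log (Real.log n)) ≤ k ∧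
      (2 * k + 1) ^ k ≤ n := by
  have hnpos : (0 : ℝ) < n := lt_of_lt_of_le (Real.exp_pos _) hn
  set y := Real.log n with hy
  have hy64 : 64 * K1 ^ 2 ≤ y := by
    rw [hy]
    exact (Real.le_log_iff_exp_le hnpos).mpr hn
  have hy64' : 64 ≤ y := by nlinarith
  have hypos : 0 < y := by linarith
  set l := Real.log y with hl
  have hl1 : 1 ≤ l := by
    rw [hl, Real.le_log_iff_exp_le hypos]
    have := Real.exp_one_lt_d9
    linarith
  set q := √y with hq0
  have hq : q * q = y := Real.mul_self_sqrt hypos.le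
  have hqpos : 0 < q := Real.sqrt_pos.mpr hypos
  have hl2 : l ≤ 2 * q := by
    have h1 : Real.log q ≤ q - 1 := Real.log_le_sub_one_of_pos hqpos
    have e : l = 2 * Real.log q := by
      rw [hl, ← hq, Real.log_mul hqpos.ne' hqpos.ne']
      ring
    linarith
  have hq8 : 8 * K1 ≤ q := by
    by_contra h
    push Not at h
    nlinarith
  have hr : K1 ≤ y / (4 * l) := by
    rw [le_div_iff₀ (by positivity)]
    nlinarith
  have hfl0 : 0 ≤ y / (2 * l) := by positivity
  have e2 : y / (2 * l) = 2 * (y / (4 * l)) := by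
    field_simp
    ring
  have hk1 : ((⌊y / (2 * l)⌋₊ : ℕ) : ℝ) ≤ y / (2 * l) := Nat.floor_le hfl0
  have hk2 : y / (2 * l) < ((⌊y / (2 * l)⌋₊ : ℕ) : ℝ) + 1 := Nat.lt_floor_add_one _
  set k : ℕ := ⌊y / (2 * l)⌋₊ with hk
  have hk3 : y / (4 * l) ≤ (k : ℝ) := by linarith
  have hkK : K1 ≤ (k : ℝ) := hr.trans hk3
  refine ⟨k, ?_, hkK, hk3, ?_⟩
  · have : (1 : ℝ) ≤ (k : ℝ) := hK1.trans hkK
    exact_mod_cast this
  · have h1 : (2 * (k : ℝ) + 1) ≤ Real.exp (2 * l) := by
      have e3 : Real.exp (2 * l) = y * y := by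
        rw [two_mul, Real.exp_add, hl, Real.exp_log hypos]
      rw [e3]
      have h2 : y / (2 * l) ≤ y / 2 := by
        refine div_le_div_of_nonneg_left hypos.le (by norm_num) (by linarith)
      nlinarith
    have h3 : (2 * (k : ℝ) + 1) ^ k ≤ (n : ℝ) := by
      calc (2 * (k : ℝ) + 1) ^ k ≤ (Real.exp (2 * l)) ^ k :=
            pow_le_pow_left₀ (by positivity) h1 k
        _ = Real.exp ((k : ℝ) * (2 * l)) := (Real.exp_nat_mul _ _).symm
        _ ≤ Real.exp y := by
            refine Real.exp_le_exp.mpr ?_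
            have : (k : ℝ) * (2 * l) ≤ y / (2 * l) * (2 * l) :=
              mul_le_mul_of_nonneg_right hk1 (by positivity)
            have e4 : y / (2 * l) * (2 * l) = y := by field_simp
            linarith
        _ = n := by rw [hy, Real.exp_log hnpos]
    exact_mod_cast h3

/-- For `p ≥ 2` there are `c > 0` and `n₀` such that for every `n ≥ n₀` some `n`-point subset of an
`L_p` space has the property: every map of it into `ℓ_p^d` with distortion at most `D` has
`d ≥ c (log n / log log n)^{p/2} / D^p`. -/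
theorem result (p : ℝ) (hp : 2 ≤ p) :
    ∃ c : ℝ, 0 < c ∧ ∃ n₀ : ℕ, ∀ n : ℕ, n₀ ≤ n →
      ∃ (Ω : Type) (_ : MeasurableSpace Ω) (μ : Measure Ω)
        (x : Fin n → Lp ℝ (ENNReal.ofReal p) μ), Function.Injective x ∧
        ∀ (D : ℝ), 1 ≤ D → ∀ (d : ℕ) (f : Fin n → PiLp (ENNReal.ofReal p) (fun _ : Fin d => ℝ))
          (s : ℝ), 0 < s →
          (∀ i j, s * ‖x i - x j‖ ≤ ‖f i - f j‖ ∧ ‖f i - f j‖ ≤ D * s * ‖x i - x j‖) →
          c * (Real.log n / Real.log (Real.log n)) ^ (p / 2) / D ^ p ≤ d := by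
  have hp0 : 0 < p := by linarith
  have hM2 := Mr_pos 2 (by norm_num)
  have hMp := Mr_pos p hp0
  have hC1 := C1_pos p hp0
  set A : ℝ := 3 ^ (p - 1) * 3 ^ (p - 1) * ((Real.pi / 2) ^ p * Mr p + 2 * C1 p) with hA
  set B : ℝ := 3 ^ (p - 1) * (2 * C1 p) with hB
  have hApos : 0 < A := by positivity
  have hBpos : 0 < B := by positivity
  set K1 : ℝ := max 1 ((2 * B) ^ (2 / p) / Mr 2) with hK1
  have hK1one : 1 ≤ K1 := le_max_left _ _
  refine ⟨(Mr 2 / 4) ^ (p / 2) / (2 * A), by positivity, ⌈Real.exp (64 * K1 ^ 2)⌉₊, ?_⟩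
  intro n hn
  have hn' : Real.exp (64 * K1 ^ 2) ≤ n := (Nat.le_ceil _).trans (by exact_mod_cast hn)
  obtain ⟨k, hk1, hkK, hkr, hkn⟩ := choose_k K1 hK1one n hn'
  obtain ⟨x, hxinj, hx⟩ := lower_k p hp k hk1 n hkn
  refine ⟨EuclideanSpace ℝ (Fin k), inferInstance, stdGaussian (EuclideanSpace ℝ (Fin k)), x,
    hxinj, ?_⟩
  intro D hD d f s hs hf
  have hD0 : 0 < D := by linarith
  have hDp : 0 < D ^ p := Real.rpow_pos_of_pos hD0 p
  have h1 := hx D hD0.le d f s hs hf
  have h2 : ((k : ℝ) * Mr 2) ^ (p / 2) ≤ A * (d * D ^ p) + B := by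
    calc ((k : ℝ) * Mr 2) ^ (p / 2) ≤ _ := h1
      _ = A * (d * D ^ p) + B := by
          rw [hA, hB]
          ring
  -- `k` is large
  have h3 : 2 * B ≤ ((k : ℝ) * Mr 2) ^ (p / 2) := by
    have h4 : (2 * B) ^ (2 / p) ≤ (k : ℝ) * Mr 2 := by
      have : (2 * B) ^ (2 / p) / Mr 2 ≤ (k : ℝ) := (le_max_right _ _).trans hkK
      rwa [div_le_iff₀ hM2] at this
    have h5 := Real.rpow_le_rpow (by positivity) h4 (show 0 ≤ p / 2 by positivity)
    rw [← Real.rpow_mul (by positivity)] at h5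
    have e : 2 / p * (p / 2) = 1 := by field_simp
    rwa [e, Real.rpow_one] at h5
  -- comparison of `k` with `log n / log log n`
  set r : ℝ := Real.log n / Real.log (Real.log n) with hr
  have hr4 : r / 4 ≤ (k : ℝ) := by
    have e : r / 4 = Real.log n / (4 * Real.log (Real.log n)) := by
      rw [hr, div_div, mul_comm]
    rw [e]
    exact hkr
  by_cases hr0 : 0 ≤ r
  · have h6 : (Mr 2 / 4) ^ (p / 2) * r ^ (p / 2) ≤ ((k : ℝ) * Mr 2) ^ (p / 2) := by
      rw [← Real.mul_rpow (by positivity) hr0]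
      refine Real.rpow_le_rpow (by positivity) ?_ (by positivity)
      calc Mr 2 / 4 * r = r / 4 * Mr 2 := by ring
        _ ≤ (k : ℝ) * Mr 2 := mul_le_mul_of_nonneg_right hr4 hM2.le
    rw [div_le_iff₀ hDp, div_mul_eq_mul_div, div_le_iff₀ (by positivity)]
    nlinarith
  · push Not at hr0
    exfalso
    have hnpos : (0 : ℝ) < n := lt_of_lt_of_le (Real.exp_pos _) hn'
    have hy : 64 * K1 ^ 2 ≤ Real.log n := (Real.le_log_iff_exp_le hnpos).mpr hn'
    have hy1 : 1 ≤ Real.log n := by nlinarith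
    have : 0 ≤ r := div_nonneg (by linarith) (Real.log_nonneg hy1)
    linarith

end Vale.Agent.Results.P249.LowerBound
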