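import Mathlib
import Vale.Agent.Results.P249.General
import Vale.Agent.Results.P249.LowerBound

/-!
# P249 : two sided bounds `c (log n / log log n)^{p/2} / D^p ≤ d_p(n, D) ≤ C ((D+1)/(D-1))^2 n log n`
-/

namespace Vale.Agent.Results.P249.Bounds

open MeasureTheory

/-- For `p ≥ 2` there are `c > 0`, `C` and `n₀` such that for all `n ≥ n₀`:
(lower bound) some `n`-point subset of an `L_p` space admits a map of distortion at most `D` into
`ℓ_p^d` only if `d ≥ c (log n / log log n)^{p/2} / D^p`;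
(upper bound) for each `D > 1` there is `d ≤ C ((D+1)/(D-1))^2 n log n` such that any `n` points of
any `L_p(μ)` admit a map of distortion at most `D` into `ℓ_p^d`. -/
theorem result (p : ℝ) (hp : 2 ≤ p) :
    ∃ c C : ℝ, 0 < c ∧ ∃ n₀ : ℕ, ∀ n : ℕ, n₀ ≤ n →
      (∃ (Ω : Type) (_ : MeasurableSpace Ω) (μ : Measure Ω)
        (x : Fin n → Lp ℝ (ENNReal.ofReal p) μ), Function.Injective x ∧
        ∀ (D : ℝ), 1 ≤ D → ∀ (d : ℕ) (f : Fin n → PiLp (ENNReal.ofReal p) (fun _ : Fin d => ℝ))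
          (s : ℝ), 0 < s →
          (∀ i j, s * ‖x i - x j‖ ≤ ‖f i - f j‖ ∧ ‖f i - f j‖ ≤ D * s * ‖x i - x j‖) →
          c * (Real.log n / Real.log (Real.log n)) ^ (p / 2) / D ^ p ≤ d) ∧
      (∀ D : ℝ, 1 < D →
        ∃ d : ℕ, (d : ℝ) ≤ C * ((D + 1) / (D - 1)) ^ 2 * n * Real.log n ∧
          ∀ (Ω : Type) [MeasurableSpace Ω] (μ : Measure Ω)
            (x : Fin n → Lp ℝ (ENNReal.ofReal p) μ),
            ∃ (f : Fin n → PiLp (ENNReal.ofReal p) (fun _ : Fin d => ℝ)) (s : ℝ), 0 < s ∧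
              ∀ i j, s * ‖x i - x j‖ ≤ ‖f i - f j‖ ∧ ‖f i - f j‖ ≤ D * s * ‖x i - x j‖) := by
  obtain ⟨c, hc, n₀, hlow⟩ := Vale.Agent.Results.P249.LowerBound.result p hp
  obtain ⟨C, hup⟩ := Vale.Agent.Results.P249.General.result.{0} p (by linarith)
  refine ⟨c, C, hc, max n₀ 2, fun n hn => ⟨hlow n ((le_max_left _ _).trans hn), fun D hD => ?_⟩⟩
  obtain ⟨d, hd, h⟩ := hup D hD n ((le_max_right _ _).trans hn)
  exact ⟨d, hd, fun Ω _ μ x => h μ x⟩

end Vale.Agent.Results.P249.Bounds
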