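import Mathlib
import Vale.Agent.Lib.P249.Additive
import Vale.Agent.Lib.P249.SimpleMax

/-!
# P249 : logarithmic dimension reduction with additive error for incompressible subsets of `L_p`
-/

namespace Vale.Agent.Results.P249.Incompressible

open Vale.Agent.Lib.P249 MeasureTheory

universe u

/-- The purely numerical part of the union bound. -/
theorem union_num (n : ℕ) (hn2 : 1 < n) (ε : ℝ) (hε : 0 < ε) (A : ℝ) (hApos : 0 < A)
    (A' : ℝ) (hA'pos : 0 < A') (hA'A : A' ≤ 7 / 5 * A) (d : ℕ)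
    (hdQ : 48 * (A ^ 2 * Real.log n / ε ^ 2) < (d : ℝ)) :
    (n : ℝ) ^ 2 * (2 * Real.exp (-((d : ℝ) * (ε / 2 / A') ^ 2 / 2))) < 1 := by
  have hnR : (2 : ℝ) ≤ (n : ℝ) := by exact_mod_cast hn2
  have hnpos : (0 : ℝ) < (n : ℝ) := by linarith
  have hlogn : 0 ≤ Real.log n := Real.log_natCast_nonneg n
  have h1 : 3 * Real.log n < (d : ℝ) * (ε / 2 / A') ^ 2 / 2 := by
    have e1 : (d : ℝ) * (ε / 2 / A') ^ 2 / 2 = d * ε ^ 2 / (8 * A' ^ 2) := by
      field_simp
      ring
    rw [e1, lt_div_iff₀ (by positivity)]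
    have h2 : A' ^ 2 ≤ 2 * A ^ 2 := by
      have : A' ^ 2 ≤ (7 / 5 * A) ^ 2 := pow_le_pow_left₀ hA'pos.le hA'A 2
      nlinarith [sq_nonneg A]
    have h3 : 48 * (A ^ 2 * Real.log n) < d * ε ^ 2 := by
      have : 48 * (A ^ 2 * Real.log n / ε ^ 2) * ε ^ 2 < d * ε ^ 2 :=
        mul_lt_mul_of_pos_right hdQ (by positivity)
      have e2 : 48 * (A ^ 2 * Real.log n / ε ^ 2) * ε ^ 2 = 48 * (A ^ 2 * Real.log n) := by
        field_simp
      linarith
    have h4 : 3 * Real.log n * (8 * A' ^ 2) ≤ 48 * (A ^ 2 * Real.log n) := by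
      have : Real.log n * A' ^ 2 ≤ Real.log n * (2 * A ^ 2) :=
        mul_le_mul_of_nonneg_left h2 hlogn
      linarith
    linarith
  have h2 : Real.exp (-((d : ℝ) * (ε / 2 / A') ^ 2 / 2)) < ((n : ℝ) ^ 3)⁻¹ := by
    have e3 : ((n : ℝ) ^ 3)⁻¹ = Real.exp (-(3 * Real.log n)) := by
      rw [Real.exp_neg, show (3 : ℝ) = ((3 : ℕ) : ℝ) by norm_num, Real.exp_nat_mul,
        Real.exp_log hnpos]
    rw [e3]
    exact Real.exp_lt_exp.mpr (by linarith)
  calc (n : ℝ) ^ 2 * (2 * Real.exp (-((d : ℝ) * (ε / 2 / A') ^ 2 / 2)))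
      < (n : ℝ) ^ 2 * (2 * ((n : ℝ) ^ 3)⁻¹) := by
        refine mul_lt_mul_of_pos_left ?_ (by positivity)
        linarith
    _ = 2 / (n : ℝ) := by field_simp
    _ ≤ 1 := by
        rw [div_le_one hnpos]
        exact hnR

/-- If `x_1, …, x_n ∈ L_p(μ)` satisfy `‖max_i |x_i|‖_p ≤ K`, then there are `y_1, …, y_n ∈ ℓ_p^d`
with `d ≤ 32 e² (2K)^{2p} log n / ε²` and `| ‖y_i - y_j‖^p - ‖x_i - x_j‖^p | ≤ ε`. -/
theorem result (p : ℝ) (hp : 1 ≤ p) (K : ℝ) (hK : 0 < K) (n : ℕ) (ε : ℝ) (hε : 0 < ε) :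
    ∃ d : ℕ, (d : ℝ) ≤ 32 * Real.exp 2 * (2 * K) ^ (2 * p) * Real.log n / ε ^ 2 ∧
      ∀ {Ω : Type u} [MeasurableSpace Ω] (μ : Measure Ω)
        (x : Fin n → Lp ℝ (ENNReal.ofReal p) μ),
        eLpNorm (fun ω => ⨆ i, |x i ω|) (ENNReal.ofReal p) μ ≤ ENNReal.ofReal K →
        ∃ y : Fin n → PiLp (ENNReal.ofReal p) (fun _ : Fin d => ℝ), ∀ i j,
          ‖x i - x j‖ ^ p - ε ≤ ‖y i - y j‖ ^ p ∧ ‖y i - y j‖ ^ p ≤ ‖x i - x j‖ ^ p + ε := by
  have hp0 : 0 < p := by linarith
  have hq : (ENNReal.ofReal p).toReal = p := ENNReal.toReal_ofReal hp0.le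
  have hq0 : 0 < (ENNReal.ofReal p).toReal := by rw [hq]; exact hp0
  have hqt : ENNReal.ofReal p ≠ ⊤ := ENNReal.ofReal_ne_top
  have hq1 : 1 ≤ ENNReal.ofReal p := by
    rw [← ENNReal.ofReal_one]
    exact ENNReal.ofReal_le_ofReal hp
  have hfact : Fact (1 ≤ ENNReal.ofReal p) := ⟨hq1⟩
  set A : ℝ := (2 * K) ^ p with hA
  have hApos : 0 < A := by positivity
  have hA2 : (2 * K) ^ (2 * p) = A ^ 2 := by
    rw [hA, mul_comm 2 p, Real.rpow_mul (by positivity)]
    norm_cast
  have hlogn : 0 ≤ Real.log n := Real.log_natCast_nonneg n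
  have hexp : (3 : ℝ) ≤ Real.exp 2 := by
    have := Real.add_one_le_exp (2 : ℝ)
    linarith
  -- norms in the target
  have hnormy : ∀ (N : ℕ) (f g : Fin N → ℝ),
      ‖WithLp.toLp (ENNReal.ofReal p) f - WithLp.toLp (ENNReal.ofReal p) g‖ ^ p
        = ∑ t, |f t - g t| ^ p := by
    intro N f g
    have h0 : 0 ≤ ∑ t, |f t - g t| ^ p :=
      Finset.sum_nonneg (fun t _ => Real.rpow_nonneg (abs_nonneg _) p)
    have h1 : ‖WithLp.toLp (ENNReal.ofReal p) f - WithLp.toLp (ENNReal.ofReal p) g‖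
        = (∑ t, |f t - g t| ^ p) ^ (1 / p) := by
      rw [PiLp.norm_eq_sum hq0, hq]
      simp only [Real.norm_eq_abs]
      rfl
    rw [h1, ← Real.rpow_mul h0, one_div_mul_cancel hp0.ne', Real.rpow_one]
  -- consequences of the hypothesis
  have hbound : ∀ {Ω : Type u} [MeasurableSpace Ω] (μ : Measure Ω)
      (x : Fin n → Lp ℝ (ENNReal.ofReal p) μ),
      eLpNorm (fun ω => ⨆ i, |x i ω|) (ENNReal.ofReal p) μ ≤ ENNReal.ofReal K →
      ∀ i j, ‖x i - x j‖ ≤ 2 * K := by
    intro Ω _ μ x hx i j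
    have h1 : ∀ i, ‖x i‖ ≤ K := by
      intro i
      rw [Lp.norm_def]
      refine ENNReal.toReal_le_of_le_ofReal hK.le (le_trans ?_ hx)
      refine eLpNorm_mono_real (fun ω => ?_)
      rw [Real.norm_eq_abs]
      exact le_ciSup (f := fun i => |x i ω|) (Set.finite_range _).bddAbove i
    calc ‖x i - x j‖ ≤ ‖x i‖ + ‖x j‖ := norm_sub_le _ _
      _ ≤ 2 * K := by
          have := h1 i
          have := h1 j
          linarith
  by_cases hdeg : n ≤ 1 ∨ A ≤ ε
  · -- degenerate cases: dimension zero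
    refine ⟨0, ?_, ?_⟩
    · rw [Nat.cast_zero]
      positivity
    · intro Ω _ μ x hx
      refine ⟨fun _ => WithLp.toLp (ENNReal.ofReal p) (fun _ => 0), fun i j => ?_⟩
      rw [hnormy]
      simp only [Finset.univ_eq_empty, Finset.sum_empty]
      have hnn : 0 ≤ ‖x i - x j‖ ^ p := Real.rpow_nonneg (norm_nonneg _) p
      have hle : ‖x i - x j‖ ^ p ≤ ε := by
        rcases hdeg with h1 | h1
        · have hij : i = j := by
            have := i.2
            have := j.2
            ext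
            omega
          rw [hij, sub_self, norm_zero, Real.zero_rpow hp0.ne']
          exact hε.le
        · calc ‖x i - x j‖ ^ p ≤ (2 * K) ^ p :=
                Real.rpow_le_rpow (norm_nonneg _) (hbound μ x hx i j) hp0.le
            _ ≤ ε := h1
      constructor <;> linarith
  · push Not at hdeg
    obtain ⟨hn2, hAε⟩ := hdeg
    have hnR : (2 : ℝ) ≤ (n : ℝ) := by exact_mod_cast hn2
    have hnpos : (0 : ℝ) < (n : ℝ) := by linarith
    have hlog2 : (1 : ℝ) / 2 ≤ Real.log n := by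
      have h1 : Real.log 2 ≤ Real.log n := Real.log_le_log (by norm_num) hnR
      have h2 := Real.log_two_gt_d9
      linarith
    set Q : ℝ := A ^ 2 * Real.log n / ε ^ 2 with hQ
    have hQhalf : (1 : ℝ) / 2 ≤ Q := by
      rw [hQ, le_div_iff₀ (by positivity)]
      have h1 : ε ^ 2 ≤ A ^ 2 := pow_le_pow_left₀ hε.le hAε.le 2
      have h2 : 0 ≤ A ^ 2 := by positivity
      nlinarith
    refine ⟨⌊48 * Q⌋₊ + 1, ?_, ?_⟩
    · have h1 : ((⌊48 * Q⌋₊ : ℕ) : ℝ) ≤ 48 * Q := Nat.floor_le (by linarith)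
      have h2 : 32 * Real.exp 2 * (2 * K) ^ (2 * p) * Real.log n / ε ^ 2
          = 32 * Real.exp 2 * Q := by
        rw [hA2, hQ]
        ring
      rw [h2]
      push_cast
      nlinarith
    intro Ω _ μ x hx
    set d : ℕ := ⌊48 * Q⌋₊ + 1 with hd
    have hdQ : 48 * Q < (d : ℝ) := by
      rw [hd]
      push_cast
      exact Nat.lt_floor_add_one _
    -- uniform continuity of `t ^ p` on a compact interval
    have hcont : Continuous (fun t : ℝ => t ^ p) :=
      continuous_id.rpow_const (fun _ => Or.inr hp0.le)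
    have huc := (isCompact_Icc (a := (0 : ℝ)) (b := 2 * K + 1)).uniformContinuousOn_of_continuous
      hcont.continuousOn
    rw [Metric.uniformContinuousOn_iff] at huc
    obtain ⟨δ₁, hδ₁, huc₁⟩ := huc (ε / 2) (by positivity)
    obtain ⟨δ₂, hδ₂, huc₂⟩ := huc (2 / 5 * A) (by positivity)
    set η : ℝ := min (min (δ₁ / 4) (δ₂ / (4 * ((n : ℝ) + 1)))) (1 / (4 * ((n : ℝ) + 1))) with hη
    have hηpos : 0 < η := by
      rw [hη]
      refine lt_min (lt_min (by positivity) (by positivity)) (by positivity)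
    have hη1 : η ≤ δ₁ / 4 := (min_le_left _ _).trans (min_le_left _ _)
    have hη2 : η ≤ δ₂ / (4 * ((n : ℝ) + 1)) := (min_le_left _ _).trans (min_le_right _ _)
    have hη3 : η ≤ 1 / (4 * ((n : ℝ) + 1)) := min_le_right _ _
    have hnη2 : 2 * ((n : ℝ) * η) < δ₂ := by
      have h1 : η * (4 * ((n : ℝ) + 1)) ≤ δ₂ := (le_div_iff₀ (by positivity)).mp hη2
      nlinarith
    have hnη3 : 2 * ((n : ℝ) * η) ≤ 1 := by
      have h1 : η * (4 * ((n : ℝ) + 1)) ≤ 1 := (le_div_iff₀ (by positivity)).mp hη3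
      nlinarith
    have hη4 : 2 * η ≤ 1 := by nlinarith
    -- approximation by simple functions
    have hdense : ∀ z : Lp ℝ (ENNReal.ofReal p) μ, ∃ s : Lp.simpleFunc ℝ (ENNReal.ofReal p) μ,
        dist z (s : Lp ℝ (ENNReal.ofReal p) μ) < η := fun z =>
      (Lp.simpleFunc.denseRange hqt).exists_dist_lt z hηpos
    choose φ hφ using hdense
    set g : Fin n → SimpleFunc Ω ℝ := fun i => Lp.simpleFunc.toSimpleFunc (φ (x i)) with hg
    have hgmem : ∀ i, MemLp (g i) (ENNReal.ofReal p) μ := fun i => Lp.simpleFunc.memLp _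
    have hgae : ∀ i, ⇑(g i) =ᵐ[μ] ((φ (x i) : Lp ℝ (ENNReal.ofReal p) μ) : Ω → ℝ) := fun i =>
      Lp.simpleFunc.toSimpleFunc_eq_toFun (φ (x i))
    obtain ⟨a, W, hW0, hWa, hWsum, ha⟩ := simple_to_finite_max μ p hp g hgmem
    have hnormS : ∀ i j,
        ‖(φ (x i) : Lp ℝ (ENNReal.ofReal p) μ) - (φ (x j) : Lp ℝ (ENNReal.ofReal p) μ)‖
        = (∑ k, |a i k - a j k| ^ p) ^ (1 / p) := by
      intro i j
      rw [← ha i j, Lp.norm_def]
      congr 1
      refine eLpNorm_congr_ae ?_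
      filter_upwards [Lp.coeFn_sub (φ (x i) : Lp ℝ (ENNReal.ofReal p) μ)
        (φ (x j) : Lp ℝ (ENNReal.ofReal p) μ), hgae i, hgae j] with ω h1 h2 h3
      rw [h1]
      simp only [Pi.sub_apply, h2, h3]
    -- the norm of the maximum of the approximants
    set K' : ℝ := K + n * η with hK'
    have hK'pos : 0 < K' := by positivity
    have hN : (eLpNorm (fun ω => ⨆ i, |g i ω|) (ENNReal.ofReal p) μ).toReal ≤ K' := by
      refine ENNReal.toReal_le_of_le_ofReal hK'pos.le ?_
      have hmeasx : AEStronglyMeasurable (fun ω => ⨆ i, |x i ω|) μ := by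
        refine AEMeasurable.aestronglyMeasurable ?_
        refine AEMeasurable.iSup (fun i => ?_)
        exact (Lp.aestronglyMeasurable (x i)).aemeasurable.abs
      have hmeasu : ∀ i, AEStronglyMeasurable (fun ω => |g i ω - x i ω|) μ := by
        intro i
        refine AEMeasurable.aestronglyMeasurable ?_
        exact ((g i).measurable.aemeasurable.sub (Lp.aestronglyMeasurable (x i)).aemeasurable).abs
      have hu : ∀ i, eLpNorm (fun ω => |g i ω - x i ω|) (ENNReal.ofReal p) μ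
          ≤ ENNReal.ofReal η := by
        intro i
        have h1 : eLpNorm (fun ω => |g i ω - x i ω|) (ENNReal.ofReal p) μ
            = eLpNorm ((x i - (φ (x i) : Lp ℝ (ENNReal.ofReal p) μ) :
                Lp ℝ (ENNReal.ofReal p) μ) : Ω → ℝ) (ENNReal.ofReal p) μ := by
          refine eLpNorm_congr_norm_ae ?_
          filter_upwards [Lp.coeFn_sub (x i) (φ (x i) : Lp ℝ (ENNReal.ofReal p) μ), hgae i]
            with ω h1 h2
          rw [h1]
          simp only [Pi.sub_apply, h2, Real.norm_eq_abs, abs_abs]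
          exact abs_sub_comm _ _
        rw [h1]
        have h2 := hφ (x i)
        rw [dist_eq_norm, Lp.norm_def] at h2
        exact (ENNReal.le_ofReal_iff_toReal_le (Lp.eLpNorm_ne_top _) hηpos.le).mpr h2.le
      calc eLpNorm (fun ω => ⨆ i, |g i ω|) (ENNReal.ofReal p) μ
          ≤ eLpNorm ((fun ω => ⨆ i, |x i ω|) + ∑ i, (fun ω => |g i ω - x i ω|))
              (ENNReal.ofReal p) μ := by
            refine eLpNorm_mono_real (fun ω => ?_)
            have hs0 : 0 ≤ ⨆ i, |g i ω| := Real.iSup_nonneg (fun i => abs_nonneg _)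
            have hs1 : 0 ≤ ⨆ i, |x i ω| := Real.iSup_nonneg (fun i => abs_nonneg _)
            have hs2 : 0 ≤ ∑ i, |g i ω - x i ω| := Finset.sum_nonneg (fun i _ => abs_nonneg _)
            rw [Real.norm_eq_abs, abs_of_nonneg hs0]
            simp only [Pi.add_apply, Finset.sum_apply]
            refine Real.iSup_le (fun i => ?_) (by linarith)
            have t1 : |x i ω| ≤ ⨆ i, |x i ω| :=
              le_ciSup (f := fun i => |x i ω|) (Set.finite_range _).bddAbove i
            have t2 : |g i ω - x i ω| ≤ ∑ i, |g i ω - x i ω| :=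
              Finset.single_le_sum (f := fun i => |g i ω - x i ω|) (fun i _ => abs_nonneg _)
                (Finset.mem_univ i)
            have t3 : |g i ω| ≤ |x i ω| + |g i ω - x i ω| := by
              have := abs_add_le (x i ω) (g i ω - x i ω)
              simpa using this
            linarith
        _ ≤ eLpNorm (fun ω => ⨆ i, |x i ω|) (ENNReal.ofReal p) μ
              + eLpNorm (∑ i, (fun ω => |g i ω - x i ω|)) (ENNReal.ofReal p) μ :=
            eLpNorm_add_le hmeasx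
              (Finset.aestronglyMeasurable_sum _ (fun i _ => hmeasu i)) hq1
        _ ≤ ENNReal.ofReal K + ∑ _i : Fin n, ENNReal.ofReal η := by
            refine add_le_add hx ?_
            exact (eLpNorm_sum_le (fun i _ => hmeasu i) hq1).trans
              (Finset.sum_le_sum (fun i _ => hu i))
        _ = ENNReal.ofReal K' := by
            rw [Finset.sum_const, Finset.card_univ, Fintype.card_fin, nsmul_eq_mul, hK',
              ENNReal.ofReal_add hK.le (by positivity), ENNReal.ofReal_mul (by positivity),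
              ENNReal.ofReal_natCast]
    set A' : ℝ := (2 * K') ^ p with hA'
    have hA'pos : 0 < A' := by positivity
    have hA'A : A' ≤ 7 / 5 * A := by
      have h1 := huc₂ (2 * K') ⟨by positivity, by rw [hK']; linarith⟩ (2 * K)
        ⟨by positivity, by linarith⟩ (by
          rw [Real.dist_eq, hK']
          have : 2 * (K + n * η) - 2 * K = 2 * (n * η) := by ring
          rw [this, abs_of_nonneg (by positivity)]
          exact hnη2)
      rw [Real.dist_eq] at h1
      have := (abs_lt.mp h1).2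
      linarith
    set S : ℝ := ∑ k, W k with hS
    have hSle : 2 ^ p * S ≤ A' := by
      rw [hWsum, hA', Real.mul_rpow (by norm_num) hK'pos.le]
      refine mul_le_mul_of_nonneg_left ?_ (by positivity)
      exact Real.rpow_le_rpow ENNReal.toReal_nonneg hN hp0.le
    set τ : ℝ := ε / 2 / A' with hτ
    have hτpos : 0 < τ := by positivity
    have hunion : (n : ℝ) ^ 2 * (2 * Real.exp (-((d : ℝ) * τ ^ 2 / 2))) < 1 :=
      union_num n hn2 ε hε A hApos A' hA'pos hA'A d hdQ
    obtain ⟨f, hf⟩ := core_add p hp n a W hW0 hWa S rfl τ hτpos d hunion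
    refine ⟨fun i => WithLp.toLp (ENNReal.ofReal p) (f i), fun i j => ?_⟩
    rw [hnormy]
    have h1 := hf i j
    have h2 : 2 ^ p * S * τ ≤ ε / 2 := by
      calc 2 ^ p * S * τ ≤ A' * τ := mul_le_mul_of_nonneg_right hSle hτpos.le
        _ = ε / 2 := by
            rw [hτ]
            field_simp
    set Λ : ℝ := ∑ k, |a i k - a j k| ^ p with hΛ
    have hΛ0 : 0 ≤ Λ := Finset.sum_nonneg (fun k _ => Real.rpow_nonneg (abs_nonneg _) p)
    set Bn : ℝ :=
      ‖(φ (x i) : Lp ℝ (ENNReal.ofReal p) μ) - (φ (x j) : Lp ℝ (ENNReal.ofReal p) μ)‖ with hBn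
    have hBΛ : Bn ^ p = Λ := by
      rw [hBn, hnormS i j, ← Real.rpow_mul hΛ0, one_div_mul_cancel hp0.ne', Real.rpow_one]
    set An : ℝ := ‖x i - x j‖ with hAn
    have hAn0 : 0 ≤ An := norm_nonneg _
    have hBn0 : 0 ≤ Bn := norm_nonneg _
    have hAnK : An ≤ 2 * K := hbound μ x hx i j
    have hAB : |An - Bn| ≤ 2 * η := by
      have t1 := hφ (x i)
      have t2 := hφ (x j)
      rw [dist_eq_norm] at t1 t2
      have t3 : |An - Bn| ≤ ‖(x i - x j) - ((φ (x i) : Lp ℝ (ENNReal.ofReal p) μ)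
          - (φ (x j) : Lp ℝ (ENNReal.ofReal p) μ))‖ := abs_norm_sub_norm_le _ _
      have e : (x i - x j) - ((φ (x i) : Lp ℝ (ENNReal.ofReal p) μ)
          - (φ (x j) : Lp ℝ (ENNReal.ofReal p) μ))
          = (x i - (φ (x i) : Lp ℝ (ENNReal.ofReal p) μ))
            - (x j - (φ (x j) : Lp ℝ (ENNReal.ofReal p) μ)) := by abel
      rw [e] at t3
      have t4 := norm_sub_le (x i - (φ (x i) : Lp ℝ (ENNReal.ofReal p) μ))
        (x j - (φ (x j) : Lp ℝ (ENNReal.ofReal p) μ))
      linarith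
    have hBnK : Bn ≤ 2 * K + 1 := by
      have := (abs_le.mp hAB).1
      linarith
    have h3 : |An ^ p - Bn ^ p| < ε / 2 := by
      have := huc₁ An ⟨hAn0, by linarith⟩ Bn ⟨hBn0, hBnK⟩ (by
        rw [Real.dist_eq]
        linarith)
      rwa [Real.dist_eq] at this
    rw [hBΛ] at h3
    have h4 := abs_le.mp (h1.trans h2)
    have h5 := abs_lt.mp h3
    constructor <;> linarith [h4.1, h4.2, h5.1, h5.2]

end Vale.Agent.Results.P249.Incompressible
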