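import Mathlib
import Vale.Agent.Lib.P249.Core

/-!
# P249 : `d_p(n, D) ≤ C(p, D) * n * log n` for every `p ≥ 1` and `D > 1`
-/

namespace Vale.Agent.Results.P249.NLogN

open Vale.Agent.Lib.P249

/-- For every `p ≥ 1` and `D > 1` there is a constant `C` such that any `n ≥ 2` points of any
`ℓ_p^m` are mapped into `ℓ_p^d`, `d ≤ C n log n`, with distortion at most `D`, by a linear map. -/
theorem result (p : ℝ) (hp : 1 ≤ p) (D : ℝ) (hD : 1 < D) :
    ∃ C : ℝ, ∀ n : ℕ, 2 ≤ n → ∃ d : ℕ, (d : ℝ) ≤ C * n * Real.log n ∧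
      ∀ (m : ℕ) (x : Fin n → PiLp (ENNReal.ofReal p) (fun _ : Fin m => ℝ)),
        ∃ (T : PiLp (ENNReal.ofReal p) (fun _ : Fin m => ℝ) →ₗ[ℝ]
              PiLp (ENNReal.ofReal p) (fun _ : Fin d => ℝ)) (s : ℝ), 0 < s ∧
          ∀ i j, s * ‖x i - x j‖ ≤ ‖T (x i) - T (x j)‖ ∧
            ‖T (x i) - T (x j)‖ ≤ D * s * ‖x i - x j‖ := by
  have hp0 : 0 < p := by linarith
  have hq : (ENNReal.ofReal p).toReal = p := ENNReal.toReal_ofReal hp0.le
  have hq0 : 0 < (ENNReal.ofReal p).toReal := by rw [hq]; exact hp0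
  have hDp : 1 < D ^ p := Real.one_lt_rpow hD hp0
  set ε : ℝ := (D ^ p - 1) / (D ^ p + 1) with hε
  have hε0 : 0 < ε := div_pos (by linarith) (by linarith)
  have hε1 : ε < 1 := by
    rw [hε, div_lt_one (by linarith)]
    linarith
  have hεD : 1 + ε = D ^ p * (1 - ε) := by
    rw [hε]
    have : D ^ p + 1 ≠ 0 := by linarith
    field_simp
    ring
  have hC0 := Cdim_nonneg p ε hε0 hε1
  refine ⟨Cdim p ε + 1, fun n hn => ?_⟩
  have hnR : (2 : ℝ) ≤ (n : ℝ) := by exact_mod_cast hn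
  have hlog2 : (1 : ℝ) / 2 ≤ Real.log n := by
    have h1 : Real.log 2 ≤ Real.log n := Real.log_le_log (by norm_num) hnR
    have h2 := Real.log_two_gt_d9
    linarith
  have hnlog : 1 ≤ (n : ℝ) * Real.log n := by nlinarith
  have hX0 : 0 ≤ Cdim p ε * n * Real.log n := by
    have : 0 ≤ (n : ℝ) * Real.log n := by linarith
    rw [mul_assoc]
    exact mul_nonneg hC0 this
  refine ⟨⌈Cdim p ε * n * Real.log n⌉₊, ?_, ?_⟩
  · have h1 := (Nat.ceil_lt_add_one hX0).le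
    calc ((⌈Cdim p ε * n * Real.log n⌉₊ : ℕ) : ℝ) ≤ Cdim p ε * n * Real.log n + 1 := h1
      _ ≤ Cdim p ε * n * Real.log n + n * Real.log n := by linarith
      _ = (Cdim p ε + 1) * n * Real.log n := by ring
  intro m x
  set d : ℕ := ⌈Cdim p ε * n * Real.log n⌉₊ with hd
  have hs0 : 0 < (1 - ε) ^ (1 / p) := Real.rpow_pos_of_pos (by linarith) _
  have hnorm : ∀ (N : ℕ) (z : PiLp (ENNReal.ofReal p) (fun _ : Fin N => ℝ)),
      ‖z‖ = (∑ k, |z k| ^ p) ^ (1 / p) := by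
    intro N z
    rw [PiLp.norm_eq_sum hq0, hq]
    simp only [Real.norm_eq_abs]
  rcases Nat.eq_zero_or_pos m with hm | hm
  · subst hm
    refine ⟨0, 1, one_pos, fun i j => ?_⟩
    have h1 : ‖x i - x j‖ = 0 := by
      rw [hnorm]
      simp [Real.zero_rpow (inv_ne_zero hp0.ne')]
    have h2 : ‖(0 : PiLp (ENNReal.ofReal p) (fun _ : Fin 0 => ℝ) →ₗ[ℝ]
              PiLp (ENNReal.ofReal p) (fun _ : Fin d => ℝ)) (x i) - (0 : PiLp (ENNReal.ofReal p) (fun _ : Fin 0 => ℝ) →ₗ[ℝ]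
              PiLp (ENNReal.ofReal p) (fun _ : Fin d => ℝ)) (x j)‖ = 0 := by
      rw [hnorm]
      simp [Real.zero_rpow (inv_ne_zero hp0.ne'), Real.zero_rpow hp0.ne']
    rw [h1, h2]
    simp
  · have : Nonempty (Fin m) := ⟨⟨0, hm⟩⟩
    obtain ⟨κ, c, hκ⟩ := core p hp ε hε0 hε1 n hn d (Nat.le_ceil _) (fun i k => x i k)
    refine ⟨(WithLp.linearEquiv (ENNReal.ofReal p) ℝ (Fin d → ℝ)).symm.toLinearMap ∘ₗ
      LinearMap.pi (fun t => c t • PiLp.projₗ (ENNReal.ofReal p) (fun _ : Fin m => ℝ) (κ t)),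
      (1 - ε) ^ (1 / p), hs0, fun i j => ?_⟩
    obtain ⟨h1, h2⟩ := hκ i j
    have hΛ0 : 0 ≤ ∑ k, |x i k - x j k| ^ p :=
      Finset.sum_nonneg (fun k _ => Real.rpow_nonneg (abs_nonneg _) p)
    have hΓ0 : 0 ≤ ∑ t, |c t * x i (κ t) - c t * x j (κ t)| ^ p :=
      Finset.sum_nonneg (fun k _ => Real.rpow_nonneg (abs_nonneg _) p)
    have e1 : ‖x i - x j‖ = (∑ k, |x i k - x j k| ^ p) ^ (1 / p) := by
      rw [hnorm]
      simp only [PiLp.sub_apply]
    have e2 : ‖((WithLp.linearEquiv (ENNReal.ofReal p) ℝ (Fin d → ℝ)).symm.toLinearMap ∘ₗ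
      LinearMap.pi (fun t => c t • PiLp.projₗ (ENNReal.ofReal p) (fun _ : Fin m => ℝ) (κ t)))
        (x i) - ((WithLp.linearEquiv (ENNReal.ofReal p) ℝ (Fin d → ℝ)).symm.toLinearMap ∘ₗ
      LinearMap.pi (fun t => c t • PiLp.projₗ (ENNReal.ofReal p) (fun _ : Fin m => ℝ) (κ t)))
        (x j)‖ = (∑ t, |c t * x i (κ t) - c t * x j (κ t)| ^ p) ^ (1 / p) := by
      rw [hnorm]
      rfl
    rw [e1, e2]
    have hinv : 0 ≤ 1 / p := by positivity
    constructor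
    · rw [← Real.mul_rpow (by linarith) hΛ0]
      exact Real.rpow_le_rpow (mul_nonneg (by linarith) hΛ0) h1 hinv
    · have e3 : D * (1 - ε) ^ (1 / p) = (1 + ε) ^ (1 / p) := by
        rw [hεD, Real.mul_rpow (by positivity) (by linarith), ← Real.rpow_mul (by linarith),
          mul_one_div_cancel hp0.ne', Real.rpow_one]
      rw [e3, ← Real.mul_rpow (by linarith) hΛ0]
      exact Real.rpow_le_rpow hΓ0 h2 hinv

end Vale.Agent.Results.P249.NLogN
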